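import Crest.Agent.Lib.LinSieve.Cor

/-!
R4 (S0004) with powers, helper18: **Brun–Titchmarsh sums of `1/p` in residue classes** (from
`Lib/LinSieve/Cor.sieve_one`), for the P-side rarity counts.

* `ap_sum` : primes `p ≡ a (mod k)` in `(P₁, P₂]`, `P₁ ≥ k²` :
  `∑ 1/p ≤ (C / φ(k)) (log (log P₂ / log P₁) + 1 / log P₁)`.
* `ap_count` : `#{X < p ≤ X + H, p ≡ a (mod k)} ≤ C H / (φ(k) log (H / k))`, `H ≥ 2 k`.
* `ap_triv` : all `n ≡ a (mod k)` in `(P₁, P₂]` : `∑ 1/n ≤ 1 / P₁ + log (P₂ / P₁) / k`.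
* `tot_ge` : `k^(3/4) ≤ C φ(k)`.
* `res_sum` : the primes with `k ∣ p y - x`.
-/

set_option autoImplicit false

namespace Crest.Agent.R4P.BTs18

open Finset Crest.Agent.Lib.LinSieve

/-! ### elementary inequalities -/

/-- the floor of `P / k`, minus one -/
lemma u_ge {P : ℝ} {k : ℕ} (hk : 1 ≤ k) (h9 : 9 ≤ P) (hP : (k:ℝ) ^ 2 ≤ P) :
    2 ≤ ⌊P / k⌋₊ - 1 ∧ Real.log P / 4 ≤ Real.log ((⌊P / k⌋₊ - 1 : ℕ) : ℝ) ∧
      P / k - 2 ≤ ((⌊P / k⌋₊ - 1 : ℕ) : ℝ) := by
  have hk0 : (0:ℝ) < k := by exact_mod_cast hk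
  have hP0 : 0 < P := by linarith
  set s : ℝ := Real.sqrt P with hs
  have hs2 : s ^ 2 = P := Real.sq_sqrt hP0.le
  have hs3 : 3 ≤ s := by
    rw [hs]
    exact Real.le_sqrt_of_sq_le (by linarith)
  have hks : (k:ℝ) ≤ s := by
    rw [hs]
    exact Real.le_sqrt_of_sq_le hP
  have h1 : s ≤ P / k := by
    rw [le_div_iff₀ hk0, ← hs2]
    nlinarith
  have h2 : 3 ≤ ⌊P / k⌋₊ := Nat.le_floor (by push_cast; linarith)
  have h3 : P / k - 1 < (⌊P / k⌋₊ : ℝ) := Nat.sub_one_lt_floor _
  have e : ((⌊P / k⌋₊ - 1 : ℕ) : ℝ) = (⌊P / k⌋₊ : ℝ) - 1 := by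
    rw [Nat.cast_sub (by omega)]; norm_num
  have h4 : P / k - 2 ≤ ((⌊P / k⌋₊ - 1 : ℕ) : ℝ) := by rw [e]; linarith
  refine ⟨by omega, ?_, h4⟩
  have h5 : (2:ℝ) ≤ ((⌊P / k⌋₊ - 1 : ℕ) : ℝ) := by
    have : 2 ≤ ⌊P / k⌋₊ - 1 := by omega
    exact_mod_cast this
  -- `√s ≤ u`
  have hs0 : 0 < s := by linarith
  have h6 : Real.sqrt s ≤ ((⌊P / k⌋₊ - 1 : ℕ) : ℝ) := by
    set r := Real.sqrt s with hr
    have hr2 : r ^ 2 = s := Real.sq_sqrt hs0.le
    have hr0 : 0 ≤ r := Real.sqrt_nonneg _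
    rcases le_total r 2 with h | h
    · exact h.trans h5
    · have : r ≤ s - 2 := by rw [← hr2]; nlinarith
      linarith
  have h7 : 0 < Real.sqrt s := Real.sqrt_pos.2 hs0
  have h8 := Real.log_le_log h7 h6
  have h9' : Real.log (Real.sqrt s) = Real.log P / 4 := by
    rw [Real.log_sqrt hs0.le, hs, Real.log_sqrt hP0.le]; ring
  linarith

/-- the double logarithm -/
lemma loglog_le {P Q k u w : ℝ} (h9 : 9 ≤ P) (hPQ : P ≤ Q) (hk : 0 < k) (hkP : k ^ 2 ≤ P)
    (hu : Real.log P / 4 ≤ Real.log u) (hu2 : P / k - 2 ≤ u) (hw : w ≤ Q / k) (huw : u ≤ w)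
    (hu0 : 0 < u) :
    Real.log (Real.log w) - Real.log (Real.log u) ≤
      4 * Real.log (Real.log Q / Real.log P) + 24 / Real.log P := by
  have hP0 : 0 < P := by linarith
  have hQ0 : 0 < Q := by linarith
  have hlP : 0 < Real.log P := Real.log_pos (by linarith)
  have hlu : 0 < Real.log u := by linarith
  have hw0 : 0 < w := by linarith
  have hlw : Real.log u ≤ Real.log w := Real.log_le_log hu0 huw
  have hlw0 : 0 < Real.log w := by linarith
  have hlQ : Real.log P ≤ Real.log Q := Real.log_le_log hP0 hPQ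
  set s : ℝ := Real.sqrt P with hs
  have hs2 : s ^ 2 = P := Real.sq_sqrt hP0.le
  have hs3 : 3 ≤ s := by rw [hs]; exact Real.le_sqrt_of_sq_le (by linarith)
  have hks : k ≤ s := by rw [hs]; exact Real.le_sqrt_of_sq_le hkP
  -- `log w - log u ≤ log (Q / P) + 6 / s`
  have h1 : Real.log w - Real.log u ≤ Real.log (Q / P) + 6 / s := by
    have h2 : P / k * (1 - 2 / s) ≤ u := by
      refine le_trans ?_ hu2
      have h3 : 2 ≤ P / k * (2 / s) := by
        rw [div_mul_div_comm, le_div_iff₀ (by positivity), ← hs2]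
        nlinarith
      nlinarith
    have h3 : 0 < 1 - 2 / s := by
      have : 2 / s ≤ 2 / 3 := div_le_div_of_nonneg_left (by norm_num) (by norm_num) hs3
      linarith
    have h4 : Real.log w ≤ Real.log (Q / k) := Real.log_le_log hw0 hw
    have h5 : Real.log (P / k * (1 - 2 / s)) ≤ Real.log u := Real.log_le_log (by positivity) h2
    rw [Real.log_mul (by positivity) h3.ne', Real.log_div hP0.ne' hk.ne'] at h5
    rw [Real.log_div hQ0.ne' hk.ne'] at h4
    have h6 : -(6 / s) ≤ Real.log (1 - 2 / s) := by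
      have h7 := Real.log_le_sub_one_of_pos (show 0 < (1 - 2 / s)⁻¹ by positivity)
      rw [Real.log_inv] at h7
      have h8 : (1 - 2 / s)⁻¹ - 1 ≤ 6 / s := by
        have hs0 : 0 < s := by linarith
        rw [inv_eq_one_div, sub_le_iff_le_add, div_le_iff₀ h3]
        have e : (6 / s + 1) * (1 - 2 / s) = 1 + 4 / s * (1 - 3 / s) := by field_simp; ring
        rw [e]
        have : 3 / s ≤ 1 := by rw [div_le_one hs0]; exact hs3
        have h9 : 0 ≤ 4 / s * (1 - 3 / s) := mul_nonneg (by positivity) (by linarith)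
        linarith
      linarith
    rw [Real.log_div hQ0.ne' hP0.ne']
    linarith
  -- the ratio
  set r : ℝ := Real.log (Q / P) / Real.log P with hr
  have hr0 : 0 ≤ r := div_nonneg (Real.log_nonneg (by rw [le_div_iff₀ hP0]; linarith)) hlP.le
  have e1 : Real.log Q / Real.log P = 1 + r := by
    rw [hr, Real.log_div hQ0.ne' hP0.ne']
    field_simp
    ring
  set b : ℝ := 24 / (s * Real.log P) with hb
  have hb0 : 0 ≤ b := by positivity
  have h10 : Real.log w / Real.log u ≤ (1 + r) ^ 4 * (1 + b) := by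
    have h11 : Real.log w / Real.log u ≤ 1 + 4 * r + b := by
      have h12 : Real.log w / Real.log u = 1 + (Real.log w - Real.log u) / Real.log u := by
        field_simp
        ring
      rw [h12]
      have h13 : (Real.log w - Real.log u) / Real.log u ≤
          (Real.log (Q / P) + 6 / s) / (Real.log P / 4) := by
        refine div_le_div₀ ?_ h1 (by positivity) hu
        have : 0 ≤ Real.log (Q / P) := Real.log_nonneg (by rw [le_div_iff₀ hP0]; linarith)
        positivity
      have h14 : (Real.log (Q / P) + 6 / s) / (Real.log P / 4) = 4 * r + b := by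
        rw [hr, hb]
        have hs0 : s ≠ 0 := by
          have : 0 < s := by linarith
          exact this.ne'
        field_simp
        ring
      linarith
    refine h11.trans ?_
    have h15 : 1 + 4 * r ≤ (1 + r) ^ 4 := by nlinarith [sq_nonneg r, pow_nonneg hr0 3, pow_nonneg hr0 4]
    have h16 : 1 ≤ (1 + r) ^ 4 := by linarith
    nlinarith
  have h17 : Real.log (Real.log w / Real.log u) ≤ Real.log ((1 + r) ^ 4 * (1 + b)) :=
    Real.log_le_log (by positivity) h10
  rw [Real.log_div hlw0.ne' hlu.ne', Real.log_mul (by positivity) (by positivity), Real.log_pow,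
    ← e1] at h17
  have h18 : Real.log (1 + b) ≤ 24 / Real.log P := by
    have h19 := Real.log_le_sub_one_of_pos (show 0 < 1 + b by positivity)
    have h20 : b ≤ 24 / Real.log P := by
      rw [hb]
      refine div_le_div_of_nonneg_left (by norm_num) hlP ?_
      nlinarith
    linarith
  push_cast at h17
  linarith

/-! ### the sum over a residue class -/

/-- **Brun–Titchmarsh sum of `1/p`**, `P₁ ≥ k²` -/
theorem ap_sum : ∃ C : ℝ, 0 < C ∧ ∀ (k a : ℕ), 1 ≤ k → ∀ P Q : ℝ, 9 ≤ P → (k:ℝ) ^ 2 ≤ P → P ≤ Q →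
    ∀ F : Finset ℕ, (∀ p ∈ F, p.Prime ∧ P < p ∧ (p:ℝ) ≤ Q ∧ p % k = a % k) →
      ∑ p ∈ F, (1:ℝ) / p ≤
        C / Nat.totient k * (Real.log (Real.log Q / Real.log P) + 1 / Real.log P) := by
  classical
  obtain ⟨C, hC, h⟩ := sieve_one_inv
  refine ⟨C * 52, by positivity, fun k a hk P Q h9 hkP hPQ F hF => ?_⟩
  have hk0 : (0:ℝ) < k := by exact_mod_cast hk
  have hP0 : 0 < P := by linarith
  have hφ : (0:ℝ) < Nat.totient k := by exact_mod_cast Nat.totient_pos.2 hk
  have hlP : 0 < Real.log P := Real.log_pos (by linarith)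
  obtain ⟨hu2, hlu, hu⟩ := u_ge hk h9 hkP
  set u : ℕ := ⌊P / k⌋₊ - 1 with hudef
  set w : ℕ := ⌊Q / k⌋₊ with hwdef
  have hfl : ⌊P / k⌋₊ ≤ w := Nat.floor_mono (div_le_div_of_nonneg_right hPQ hk0.le)
  have huw : u ≤ w := by omega
  set b : ℕ := a % k with hb
  have key : ∑ p ∈ F, (1:ℝ) / p ≤
      1 / k * ∑ m ∈ (Finset.Ioc u w).filter (fun m => (k * m + b).Prime), (1:ℝ) / m := by
    have hinj : Set.InjOn (fun p : ℕ => p / k) (F : Set ℕ) := by
      intro p hp q hq hpq
      have h1 := (hF p hp).2.2.2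
      have h2 := (hF q hq).2.2.2
      simp only at hpq
      rw [← Nat.div_add_mod p k, ← Nat.div_add_mod q k, hpq, h1, h2]
    have hsub : F.image (fun p => p / k) ⊆
        (Finset.Ioc u w).filter (fun m => (k * m + b).Prime) := by
      intro m hm
      obtain ⟨p, hp, rfl⟩ := Finset.mem_image.1 hm
      obtain ⟨h1, h2, h3, h4⟩ := hF p hp
      rw [Finset.mem_filter, Finset.mem_Ioc]
      refine ⟨⟨?_, ?_⟩, ?_⟩
      · have h5 : ⌊P / k⌋₊ ≤ p / k := by
          rw [← Nat.floor_div_eq_div (K := ℝ) p k]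
          exact Nat.floor_mono (div_le_div_of_nonneg_right h2.le hk0.le)
        omega
      · have h5 : p / k ≤ w := by
          rw [hwdef, ← Nat.floor_div_eq_div (K := ℝ) p k]
          exact Nat.floor_mono (div_le_div_of_nonneg_right h3 hk0.le)
        exact h5
      · rw [← h4, Nat.div_add_mod]
        exact h1
    have h1 : ∑ p ∈ F, (1:ℝ) / p ≤ ∑ p ∈ F, 1 / k * (1 / ((p / k : ℕ) : ℝ)) := by
      refine Finset.sum_le_sum fun p hp => ?_
      obtain ⟨h1, h2, h3, h4⟩ := hF p hp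
      have h5 : u < p / k := by
        have := hsub (Finset.mem_image_of_mem _ hp)
        rw [Finset.mem_filter, Finset.mem_Ioc] at this
        exact this.1.1
      have h6 : (0:ℝ) < ((p / k : ℕ) : ℝ) := by
        have : 0 < p / k := by omega
        exact_mod_cast this
      rw [div_mul_div_comm, one_mul]
      refine one_div_le_one_div_of_le (by positivity) ?_
      have : k * (p / k) ≤ p := Nat.mul_div_le p k
      exact_mod_cast this
    rw [← Finset.mul_sum] at h1
    refine h1.trans (mul_le_mul_of_nonneg_left ?_ (by positivity))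
    rw [← Finset.sum_image (f := fun m : ℕ => (1:ℝ) / (m:ℝ)) hinj]
    exact Finset.sum_le_sum_of_subset_of_nonneg hsub fun m _ _ => by positivity
  refine key.trans ?_
  have h1 := h k b hk u w hu2 huw
  have hw' : (w:ℝ) ≤ Q / k := Nat.floor_le (div_nonneg (by linarith) hk0.le)
  have hu0 : (0:ℝ) < u := by
    have : 0 < u := by omega
    exact_mod_cast this
  have h2 := loglog_le h9 hPQ hk0 hkP hlu hu hw' (by exact_mod_cast huw) hu0
  have h3 : 1 / Real.log (u:ℝ) ≤ 4 / Real.log P := by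
    have : 1 / Real.log (u:ℝ) ≤ 1 / (Real.log P / 4) := one_div_le_one_div_of_le (by positivity) hlu
    refine this.trans (le_of_eq ?_)
    field_simp
  set L : ℝ := Real.log (Real.log Q / Real.log P) with hL
  have hL0 : 0 ≤ L := Real.log_nonneg (by
    rw [le_div_iff₀ hlP, one_mul]
    exact Real.log_le_log hP0 hPQ)
  have h4 : 2 * (Real.log (Real.log (w:ℝ)) - Real.log (Real.log (u:ℝ))) + 1 / Real.log (u:ℝ) ≤
      52 * (L + 1 / Real.log P) := by
    have e1 : 24 / Real.log P = 24 * (1 / Real.log P) := by ring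
    have e2 : 4 / Real.log P = 4 * (1 / Real.log P) := by ring
    have h5 : 0 ≤ 1 / Real.log P := by positivity
    rw [e1] at h2
    rw [e2] at h3
    linarith
  have h5 : ∑ m ∈ (Finset.Ioc u w).filter (fun m => (k * m + b).Prime), (1:ℝ) / m ≤
      C * ((k:ℝ) / Nat.totient k) * (52 * (L + 1 / Real.log P)) :=
    h1.trans (mul_le_mul_of_nonneg_left h4 (by positivity))
  calc 1 / (k:ℝ) * ∑ m ∈ (Finset.Ioc u w).filter (fun m => (k * m + b).Prime), (1:ℝ) / m
      ≤ 1 / (k:ℝ) * (C * ((k:ℝ) / Nat.totient k) * (52 * (L + 1 / Real.log P))) :=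
        mul_le_mul_of_nonneg_left h5 (by positivity)
    _ = C * 52 / Nat.totient k * (L + 1 / Real.log P) := by
        field_simp

/-! ### counting in an interval -/

/-- **Brun–Titchmarsh** : primes `p ≡ a (mod k)` in `(X, X + H]`, `2 k ≤ H` -/
theorem ap_count : ∃ C : ℝ, 0 < C ∧ ∀ (k a : ℕ), 1 ≤ k → ∀ X H : ℝ, 0 ≤ X → 2 * (k:ℝ) ≤ H →
    ∀ F : Finset ℕ, (∀ p ∈ F, p.Prime ∧ X < p ∧ (p:ℝ) ≤ X + H ∧ p % k = a % k) →
      (F.card : ℝ) ≤ C / Nat.totient k * (H / Real.log (H / k)) := by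
  classical
  obtain ⟨C, hC, h⟩ := sieve_one
  refine ⟨2 * C + 1, by positivity, fun k a hk X H hX hH F hF => ?_⟩
  have hk0 : (0:ℝ) < k := by exact_mod_cast hk
  have hφ : (0:ℝ) < Nat.totient k := by exact_mod_cast Nat.totient_pos.2 hk
  have hφk : (Nat.totient k : ℝ) ≤ k := by exact_mod_cast Nat.totient_le k
  have hH0 : 0 < H := by linarith
  set y : ℝ := H / k with hy
  have hy2 : 2 ≤ y := by rw [hy, le_div_iff₀ hk0]; exact hH
  have hly : 0 < Real.log y := Real.log_pos (by linarith)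
  set b : ℕ := a % k with hb
  set u : ℕ := ⌊X / k⌋₊ with hu
  set n : ℕ := ⌊y⌋₊ + 1 with hn
  have hyn : y ≤ n := by
    have := Nat.lt_floor_add_one y
    rw [hn]; push_cast; exact this.le
  have hn2 : 2 ≤ n := by
    have : (2:ℝ) ≤ n := hy2.trans hyn
    exact_mod_cast this
  have hny : (n:ℝ) ≤ 2 * y := by
    have := Nat.floor_le (show 0 ≤ y by linarith)
    rw [hn]; push_cast; linarith
  -- the elements with `u < p / k` and the others
  have hcard1 : (((F.filter fun p => u < p / k).card : ℕ) : ℝ) ≤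
      C * ((k:ℝ) / Nat.totient k) * (n / Real.log n) := by
    have h1 := h k (k * u + b) hk n hn2
    refine le_trans ?_ h1
    have hsub : ((F.filter fun p => u < p / k).image fun p => p / k - u) ⊆
        (Finset.Ioc 0 n).filter (fun m => (k * m + (k * u + b)).Prime) := by
      intro m hm
      obtain ⟨p, hp, rfl⟩ := Finset.mem_image.1 hm
      rw [Finset.mem_filter] at hp
      obtain ⟨h1, h2, h3, h4⟩ := hF p hp.1
      rw [Finset.mem_filter, Finset.mem_Ioc]
      refine ⟨⟨by omega, ?_⟩, ?_⟩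
      · have h5 : p / k ≤ u + n := by
          rw [← Nat.floor_div_eq_div (K := ℝ) p k]
          have h6 : (p:ℝ) / k ≤ X / k + y := by
            rw [hy, ← add_div]
            exact div_le_div_of_nonneg_right h3 hk0.le
          have h7 : ⌊(p:ℝ) / k⌋₊ ≤ ⌊X / k + y⌋₊ := Nat.floor_mono h6
          have h8 : X / k + y < (u + n + 1 : ℕ) := by
            have a1 := Nat.lt_floor_add_one (X / k)
            have a2 := Nat.lt_floor_add_one y
            rw [hu, hn]
            push_cast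
            linarith
          have h9 := (Nat.floor_lt (show 0 ≤ X / k + y by positivity)).2 h8
          omega
        omega
      · have e : k * (p / k - u) + (k * u + b) = p := by
          have h5 : k * (p / k - u) = k * (p / k) - k * u := Nat.mul_sub k (p / k) u
          have h6 : k * u ≤ k * (p / k) := Nat.mul_le_mul_left k hp.2.le
          have h7 := Nat.div_add_mod p k
          rw [h4] at h7
          omega
        rw [e]
        exact h1
    have hinj : Set.InjOn (fun p : ℕ => p / k - u) ((F.filter fun p => u < p / k : Finset ℕ) : Set ℕ) := by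
      intro p hp q hq hpq
      rw [Finset.mem_coe, Finset.mem_filter] at hp hq
      have h1 := (hF p hp.1).2.2.2
      have h2 := (hF q hq.1).2.2.2
      simp only at hpq
      have h3 : p / k = q / k := by omega
      rw [← Nat.div_add_mod p k, ← Nat.div_add_mod q k, h3, h1, h2]
    rw [← Finset.card_image_of_injOn hinj]
    exact_mod_cast Finset.card_le_card hsub
  have hcard2 : (F.filter fun p => ¬ u < p / k).card ≤ 1 := by
    rw [Finset.card_le_one]
    intro p hp q hq
    rw [Finset.mem_filter] at hp hq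
    have h1 := (hF p hp.1).2.2.2
    have h2 := (hF q hq.1).2.2.2
    have h3 : u ≤ p / k := by
      rw [hu, ← Nat.floor_div_eq_div (K := ℝ) p k]
      exact Nat.floor_mono (div_le_div_of_nonneg_right (hF p hp.1).2.1.le hk0.le)
    have h4 : u ≤ q / k := by
      rw [hu, ← Nat.floor_div_eq_div (K := ℝ) q k]
      exact Nat.floor_mono (div_le_div_of_nonneg_right (hF q hq.1).2.1.le hk0.le)
    have h5 : p / k = q / k := by omega
    rw [← Nat.div_add_mod p k, ← Nat.div_add_mod q k, h5, h1, h2]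
  have hsum : F.card = (F.filter fun p => u < p / k).card +
      (F.filter fun p => ¬ u < p / k).card := by
    rw [Finset.card_filter_add_card_filter_not]
  have h1 : (F.card : ℝ) ≤ C * ((k:ℝ) / Nat.totient k) * (n / Real.log n) + 1 := by
    rw [hsum]
    push_cast
    have : (((F.filter fun p => ¬ u < p / k).card : ℕ) : ℝ) ≤ 1 := by exact_mod_cast hcard2
    linarith
  have h2 : (n:ℝ) / Real.log n ≤ 2 * (y / Real.log y) := by
    rw [← mul_div_assoc]
    refine div_le_div₀ (by positivity) hny hly (Real.log_le_log (by linarith) hyn)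
  have h3 : (1:ℝ) ≤ 1 / Nat.totient k * (H / Real.log y) := by
    have h4 : Real.log y ≤ y := (Real.log_le_sub_one_of_pos (by linarith)).trans (by linarith)
    rw [div_mul_div_comm, one_mul, le_div_iff₀ (by positivity), one_mul]
    calc (Nat.totient k : ℝ) * Real.log y ≤ k * y := mul_le_mul hφk h4 hly.le hk0.le
      _ = H := by rw [hy]; field_simp
  calc (F.card : ℝ) ≤ C * ((k:ℝ) / Nat.totient k) * (n / Real.log n) + 1 := h1
    _ ≤ C * ((k:ℝ) / Nat.totient k) * (2 * (y / Real.log y)) +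
        1 / Nat.totient k * (H / Real.log y) := by
        refine add_le_add (mul_le_mul_of_nonneg_left h2 (by positivity)) h3
    _ = (2 * C + 1) / Nat.totient k * (H / Real.log y) := by
        rw [hy]
        field_simp


/-! ### all numbers of a residue class -/


/-! ### the totient -/

/-- `k^(3/4) ≤ C φ(k)` -/
theorem tot_ge : ∃ C : ℝ, 0 < C ∧ ∀ k : ℕ, 1 ≤ k →
    (1:ℝ) / Nat.totient k ≤ C / (k:ℝ) ^ (3 / 4 : ℝ) := by
  obtain ⟨C, hC, h⟩ := ratio_le
  refine ⟨C * 8, by positivity, fun k hk => ?_⟩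
  have hk0 : (0:ℝ) < k := by exact_mod_cast hk
  have hk1 : (1:ℝ) ≤ k := by exact_mod_cast hk
  have hφ : (0:ℝ) < Nat.totient k := by exact_mod_cast Nat.totient_pos.2 hk
  have h1 := h k (by omega)
  have hlk : 0 ≤ Real.log (k:ℝ) := Real.log_nonneg hk1
  -- `log (log k + 3) ≤ log k + 2 ≤ 8 k^(1/4)`
  have h2 : Real.log (Real.log (k:ℝ) + 3) ≤ 8 * (k:ℝ) ^ (1 / 4 : ℝ) := by
    have h3 := Real.log_le_sub_one_of_pos (show 0 < Real.log (k:ℝ) + 3 by linarith)
    have h4 : Real.log (k:ℝ) ≤ 4 * (k:ℝ) ^ (1 / 4 : ℝ) := by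
      have h5 := Real.log_le_sub_one_of_pos (show 0 < (k:ℝ) ^ (1 / 4 : ℝ) by positivity)
      rw [Real.log_rpow hk0] at h5
      linarith
    have h6 : 1 ≤ (k:ℝ) ^ (1 / 4 : ℝ) := Real.one_le_rpow hk1 (by norm_num)
    linarith
  have h3 : (k:ℝ) / Nat.totient k ≤ C * 8 * (k:ℝ) ^ (1 / 4 : ℝ) := by
    refine h1.trans ?_
    calc C * Real.log (Real.log (k:ℝ) + 3) ≤ C * (8 * (k:ℝ) ^ (1 / 4 : ℝ)) :=
          mul_le_mul_of_nonneg_left h2 hC.le
      _ = _ := by ring
  have e : (k:ℝ) = (k:ℝ) ^ (1 / 4 : ℝ) * (k:ℝ) ^ (3 / 4 : ℝ) := by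
    rw [← Real.rpow_add hk0]; norm_num
  rw [div_le_div_iff₀ hφ (by positivity), one_mul]
  rw [div_le_iff₀ hφ] at h3
  have h6 : 0 < (k:ℝ) ^ (1 / 4 : ℝ) := by positivity
  have h7 : (k:ℝ) ^ (1 / 4 : ℝ) * (k:ℝ) ^ (3 / 4 : ℝ) ≤
      (k:ℝ) ^ (1 / 4 : ℝ) * (C * 8 * Nat.totient k) := by
    rw [← e]; linarith
  exact le_of_mul_le_mul_left h7 h6


/-! ### the classes `k ∣ p y - x` -/






/-! ### D-periods -/


end Crest.Agent.R4P.BTs18
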